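import Crest.Agent.X262.Cd62.Prj
import Crest.Agent.X262.Prd86.Abs
import Crest.Agent.X262.Tr89.Fib
import Crest.Agent.X262.Vb37.Mob

-- ▼ part X262/Cd62/Ob
section

/-!
# Row 262, road B (helper62): naturality of the concave class, configurations which agree off `S`

* `ob_geq`, `ob_map` : gauge invariance and field extension for `Conc78.ob`;
* `Agr s z w` : the configurations agree off the factor `s`;  `Agr.red`, `Agr.ob`, `Agr.cpz`,
  `Agr.dv`.
-/

set_option autoImplicit false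
set_option linter.unusedSectionVars false

noncomputable section

namespace Crest.Agent.X262.Cd62

open Crest.Agent.X277 Crest.Agent.X277.BD Crest.Agent.X277.Pst Crest.Agent.X277.BD.Cyc Polynomial
open Crest.Agent.X262.Hb Crest.Agent.X262.Vb Crest.Agent.X262.Conc78
open Crest.Agent.X262.Node22 (scl chr chr_ne pv_scl)
open Crest.Agent.X262.Tree87 (Rb HZ MZ mem_Rb pR pM)

variable {J : Type} [Fintype J] [DecidableEq J] {io : J → Type} [∀ j, Fintype (io j)]
  [∀ j, DecidableEq (io j)] {I : Type} [Fintype I] {K E : Type} [Field K] [Algebra ℂ K] [Field E]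
  [Algebra ℂ E] {B : Th} {z w : Cfg io I K} {j s : J}

theorem mh_wd (j : J) (b : io j × io j) (a : io j) : MH (wdM (vr j) b a) (Pi.single j 1) := by
  have h0 : MH (0 : MvPolynomial (Vr io) ℂ) (Pi.single j 1) := fun _ h => (h rfl).elim
  refine mh_sub ?_ ?_ <;> split_ifs
  exacts [mh_vr _ _, h0, mh_vr _ _, h0]

theorem hz_wd (j : J) :
    HZ (fun _ : io j × io j => Pi.single j 1) (fun _ : io j => (0 : J → ℕ)) (wdM (vr j)) :=
  fun b a => by simpa using MZ.of_MH (mh_wd j b a)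

theorem pv_wd (y : Pnt io K) (b : io j × io j) (a : io j) : pv y (wdM (vr j) b a) =
    (if a = b.1 then y j b.2 else 0) - if a = b.2 then y j b.1 else 0 := by
  simp only [pv, wdM, map_sub]
  split_ifs <;> simp

/-- the coordinates of the factor `j` are sections -/
def Crd (j : J) (z : Cfg io I K) : Prop := ∀ i, (fun q => z.y q j i) ∈ z.V (Pi.single j 1)

theorem Crd.le (h : Crd j z) : cU j z ≤ HU j z := by
  refine Submodule.span_le.2 ?_
  rintro _ ⟨a, rfl⟩
  refine mem_Rb.2 ⟨fun b => ?_, fun q => ⟨Pi.single a 1, ?_⟩⟩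
  · simp only [pv_wd]
    refine sub_mem (H := z.V _) (x := fun q => if a = b.1 then z.y q j b.2 else 0)
      (y := fun q => if a = b.2 then z.y q j b.1 else 0) ?_ ?_ <;> split_ifs
    exacts [h _, zero_mem _, h _, zero_mem _]
  · funext b
    simp [pM]

theorem Crd.gau (h : Crd j z) (c : I → J → K) : Crd j (z.gau c) := fun i =>
  ⟨_, h i, funext fun q => by
    change (∏ j', c q j' ^ (Pi.single j 1 : J → ℕ) j') * _ = c q j * _
    rw [Finset.prod_eq_single j (fun j' _ h => by simp [h]) (by simp)]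
    simp⟩

theorem Crd.red (h : Crd j z) (hz : z.NZ) (p : Pl ℂ K ℂ E) : Crd j (z.red p) := fun i =>
  mem_redS p (h.gau (z.nrm p.V) i) fun q => (Cfg.pr_nrm hz p.V q j).1 i

theorem Crd.map (h : Crd j z) (α : K →ₐ[ℂ] E) : Crd j (z.map α) := fun i => mem_mapS α (h i)

theorem crd_cfg {d : J → ℕ} (ξ : Dat io d I K) (j : J) : Crd j ξ.cfg := fun i => by
  simpa [pv] using Tree87.pv_mem_cfg ξ (mh_vr j i)

theorem Crd.geq (h : Crd j z) (h' : Cfg.Geq z w) : Crd j w := by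
  obtain ⟨c, -, rfl⟩ := h'
  exact h.gau c

theorem ob_geq (hB : B.Ax) [Algebra.EssFiniteType ℂ K] (h : Cfg.Geq z w) (hz : z.NZ)
    (hc : Crd j z) : ob B j w = ob B j z := by
  obtain ⟨c, h0, rfl⟩ := h
  have h1 : cU j (z.gau c) = (cU j z).map (dia fun x => chr (c x.2) (Pi.single j 1)) := by
    rw [cU, cU, Submodule.map_span, ← Set.range_comp]
    congr 2
    funext a x
    exact pv_scl (mh_wd j x.1 a) _ _
  rw [ob, h1, HU, (hz_wd j).Rb_gau h0]
  exact hB.cp2_dia (fun x : (io j × io j) × I => chr_ne (h0 x.2) _)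
    (fun x => lw_scl (hz x.2) (h0 x.2) _) hc.le

theorem ob_map (hB : B.Ax) [Algebra.EssFiniteType ℂ K] [Algebra.EssFiniteType ℂ E]
    (α : K →ₐ[ℂ] E) (hc : Crd j z) :
    ob B j (z.map α) = (ob B j z).map (B.pb (LP.hom α) : B.H K →+* B.H E) := by
  have h1 : cU j (z.map α) = mapS α (cU j z) := by
    rw [cU, cU, Tree87.mapS_span]
    congr 2
    funext a x
    exact pv_map α _ _
  have h2 : aU j (z.map α) = fun x => (LP.hom α).res (aU j z x) := funext fun x => lw_map α _ _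
  rw [ob, ob, hB.cp2_rd (fun x => val_hom α _) hc.le, rd_eq, rd_eq, redS_hom, redS_hom, h1, h2,
    HU, HU, Tree87.Rb_map]

/-- the configurations agree off the factor `s` -/
structure Agr (s : J) (z w : Cfg io I K) : Prop where
  y : ∀ q j, j ≠ s → z.y q j = w.y q j
  V : ∀ κ : J → ℕ, κ s = 0 → z.V κ = w.V κ

namespace Agr

variable (h : Agr s z w)
include h

theorem ln (q : I) (hj : j ≠ s) : ln (z.y q) j = ln (w.y q) j := congrArg (mxf ℂ) (h.y q j hj)

theorem nrm (V : RZ ℂ K) (q : I) (hj : j ≠ s) : z.nrm V q j = w.nrm V q j := by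
  rw [Cfg.nrm, Cfg.nrm, h.ln q hj]

theorem red (p : Pl ℂ K ℂ E) : Agr s (z.red p) (w.red p) where
  y q j hj := by
    funext i
    change p.r (_ * _) = p.r (_ * _)
    rw [h.nrm _ q hj, h.y q j hj]
  V κ hκ := by
    change redS p (sclS _ _) = redS p (sclS _ _)
    rw [h.V κ hκ]
    congr 2
    funext q
    refine Finset.prod_congr rfl fun j _ => ?_
    by_cases hj : j = s
    · rw [hj, hκ, pow_zero, pow_zero]
    · rw [h.nrm _ q hj]

theorem ob (hj : j ≠ s) : ob B j z = ob B j w := by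
  have h1 : ∀ q b a, pv (z.y q) (wdM (vr j) b a) = pv (w.y q) (wdM (vr j) b a) := fun q b a => by
    rw [pv_wd, pv_wd, h.y q j hj]
  have h2 : aU j z = aU j w := funext fun x => by rw [aU, aU, lw_single, lw_single, h.ln _ hj]
  have h3 : cU j z = cU j w := by simp only [cU, h1]
  have h4 : ∀ q, pR (wdM (vr j)) (z.y q) = pR (wdM (vr j)) (w.y q) := fun q => by
    rw [pR, pR, show pM (wdM (vr j)) (z.y q) = pM (wdM (vr j)) (w.y q) from
      funext fun b => funext fun a => h1 q b a]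
  have h5 : HU j z = HU j w := by
    simp only [HU, Rb, h4, h.V _ (Pi.single_eq_of_ne hj.symm 1)]
  rw [Conc78.ob, Conc78.ob, h2, h3, h5]

end Agr

variable {J₀ : Type} [Fintype J₀] [DecidableEq J₀] {io₀ : J₀ → Type} [∀ j, Fintype (io₀ j)]
  [∀ j, DecidableEq (io₀ j)] {A₀ : Type} [Fintype A₀] {r : Cd io₀ io} {T : Tgt io₀ A₀}

namespace Agr

variable (h : Agr r.cn.jS z w)
include h

theorem pr (q : I) : r.pr (z.y q) = r.pr (w.y q) := by
  funext k i
  exact congrFun (h.y q _ (by simp [Cd.cn])) _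

theorem pc : pc r z = pc r w := Cfg.ext h.pr fun _ => h.V _ (r.up_S _)

theorem ea : z.ea (TP r T) = w.ea (TP r T) := by
  funext ⟨a, q⟩
  rcases a with a | p
  · rw [ea_inl, ea_inl, h.pc]
  · rw [ea_inr, ea_inr, h.ln q r.cn.CS]

theorem sv : z.sv (TP r T) = w.sv (TP r T) := by
  funext ⟨a, q⟩
  rcases a with a | p
  · rw [sv_inl, sv_inl, h.pc]
  · rw [sv_inr, sv_inr, h.y q _ r.cn.CS]

theorem dv : z.dv (TP r T) = w.dv (TP r T) := by rw [Cfg.dv, Cfg.dv, h.sv, h.ea]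

theorem cpz : cpz B (TP r T) z = cpz B (TP r T) w := by
  have h1 : z.Eb (TP r T) = w.Eb (TP r T) := by
    ext σ
    rw [mem_Eb_TP, mem_Eb_TP, h.pc, h.V r.cn.kx (Pi.single_eq_of_ne r.cn.CS.symm 1)]
  rw [Vb.cpz, Vb.cpz, h.ea, h1]

end Agr

end Crest.Agent.X262.Cd62
end
end

-- ▼ part X262/Cd62/Low

/-!
# Row 262, road B (helper62): only the top power of `λ` contributes

* `itg_top` : a polynomial in `c₁ a` with coefficients from a small field;
* `exc_fr`, `ob_fr`, `cls_fr` : the classes come from the residue field of the field without the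
  coordinates of `S`;
* `vir_low` : the virtual number of `T` is `± ` the virtual number of the product end.
-/

set_option autoImplicit false
set_option linter.unusedSectionVars false

noncomputable section

namespace Crest.Agent.X262.Cd62

open Crest.Agent.X277 Crest.Agent.X277.BD Crest.Agent.X277.Pst Crest.Agent.X277.BD.Cyc Polynomial
open Crest.Agent.X262.Hb Crest.Agent.X262.Vb Crest.Agent.X262.Conc78
open Crest.Agent.X262.End66 (sum Same)
open Crest.Agent.X262.Wd (ri dn)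
open Crest.Agent.X262.Geo (essFT_Rf dim_Rf')
open Crest.Agent.X262.Bub96 (hv)

variable {J : Type} [Fintype J] [DecidableEq J] {io : J → Type} [∀ j, Fintype (io j)]
  [∀ j, DecidableEq (io j)] {J₀ : Type} [Fintype J₀] [DecidableEq J₀] {io₀ : J₀ → Type}
  [∀ j, Fintype (io₀ j)] [∀ j, DecidableEq (io₀ j)] {A A₀ I : Type} [Fintype A] [Fintype A₀]
  [Fintype I] {K K' E F : Type} [Field K] [Algebra ℂ K] [Field K'] [Algebra ℂ K'] [Field E]
  [Algebra ℂ E] [Field F] [Algebra ℂ F] {B : Th}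

theorem itg_top (hB : B.Ax) [Algebra.EssFiniteType ℂ E] [Algebra.EssFiniteType ℂ F]
    (ι : F →ₐ[ℂ] E) (G : (B.H F)[X]) (a : BD ℂ E) {n : ℕ} (hd : n + dim ℂ F ≤ dim ℂ E)
    {G' : (B.H E)[X]} (h : G' = G.map (B.pb (LP.hom ι) : B.H F →+* B.H E))
    (hG : G'.natDegree ≤ n) : B.itg E (G'.eval (B.c1 a)) = B.itg E (G'.coeff n * B.c1 a ^ n) := by
  rw [eval_eq_sum_range' (Nat.lt_succ_of_le hG), Finset.sum_range_succ, map_add, map_sum,
    Finset.sum_eq_zero fun k hk => ?_, zero_add]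
  rw [h, coeff_map, ← Tr89.pc_replicate, mul_comm]
  exact Tr89.zer hB k ι _ _ List.length_replicate (by have := Finset.mem_range.1 hk; omega)

variable [Algebra.EssFiniteType ℂ K] [Algebra.EssFiniteType ℂ K'] {α : K' →ₐ[ℂ] K}
  {z : Cfg io I K} {z' : Cfg io I K'} {W : RZ ℂ K} {r : Cd io₀ io} {Tn : Tgt io₀ A₀}

theorem geq_red (hz' : z'.NZ) (α : K' →ₐ[ℂ] K) (W : RZ ℂ K) :
    Cfg.Geq ((z'.red (plV (dn α W))).map (ri α W)) ((z'.map α).red (plV W)) := by
  have h1 := Cfg.red_map α (LP.at W) hz'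
  rw [Prd.hom_at] at h1
  exact (Cfg.map_red (LP.at (dn α W)) (ri α W) hz').symm.trans h1

variable [Algebra.EssFiniteType ℂ (Rf W)] [Algebra.EssFiniteType ℂ (Rf (dn α W))]

theorem exc_fr (hB : B.Ax) (hz' : z'.NZ) (hA : Agr r.cn.jS z (z'.map α)) :
    exc B (TP r Tn) (z.red (plV W)) (B.pb (LP.at W) (B.c1 (z.dv (TP r Tn)))) =
      B.pb (LP.hom (ri α W)) (exc B (TP r Tn) (z'.red (plV (dn α W)))
        (B.pb (LP.at (dn α W)) (B.c1 (z'.dv (TP r Tn))))) := by
  rw [hA.dv, Cfg.dv_map, ← hB.pb_c1_hom, ← hB.pb_comp, Prd.hom_at, hB.pb_comp,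
    exc_congr (hA.red _).cpz, exc_geq hB (geq_red hz' α W) ((hz'.red _).map _), exc_map hB]

theorem ob_fr (hB : B.Ax) (hz' : z'.NZ) {s j : J} (hA : Agr s z (z'.map α)) (hj : j ≠ s)
    (hc : Crd j z') : ob B j (z.red (plV W)) =
      (ob B j (z'.red (plV (dn α W)))).map (B.pb (LP.hom (ri α W)) : B.H _ →+* B.H _) := by
  rw [(hA.red _).ob hj, ob_geq hB (geq_red hz' α W) ((hz'.red _).map _) ((hc.red hz' _).map _),
    ob_map hB _ (hc.red hz' _)]

theorem cls_fr (hz' : z'.NZ) (hA : Agr r.cn.jS z (z'.map α)) {β : Fam B io₀} (hβ : Cls B Tn β)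
    (hO : (pc r (z.red (plV W))).On Tn) (q : I) : β _ (r.pr ((z.red (plV W)).y q)) =
      B.pb (LP.hom (ri α W)) (β _ (r.pr ((z'.red (plV (dn α W))).y q))) := by
  have h1 := pc_geq r (geq_red hz' α W)
  have h2 := pc_nz r (hz'.red (plV (dn α W)))
  rw [(hA.red _).pc] at hO
  have h3 := (h1.on Tn).1 hO
  rw [(hA.red _).pr]
  exact ((hβ.at ()).geq (m := fun _ => q) h1 (h2.map _) h3).trans
    ((hβ.at ()).map (m := fun _ => q) (ri α W) h2 ((Cfg.on_map Tn _).1 h3))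

omit [Algebra.EssFiniteType ℂ (Rf W)] [Algebra.EssFiniteType ℂ (Rf (dn α W))]

theorem red_const {d : J → ℕ} (ξ : Dat io d I K) {s : J} (hs : d s = 0) (p : Pl ℂ K ℂ E)
    (q q' : I) : (ξ.cfg.red p).y q s = (ξ.cfg.red p).y q' s := by
  have h0 : ∀ i t, hv (d s) (ξ.f s i) t = (ξ.f s i).coeff 0 := fun i t => by
    have h := ξ.cp.1 s i
    rw [hs] at h ⊢
    rw [eq_C_of_natDegree_le_zero h]
    cases t <;> simp [hv]
  have h1 : ξ.cfg.y q s = ξ.cfg.y q' s := funext fun i => (h0 i _).trans (h0 i _).symm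
  funext i
  change p.r (((mxf ℂ (ξ.cfg.y q s)).gen _)⁻¹ * ξ.cfg.y q s i) =
    p.r (((mxf ℂ (ξ.cfg.y q' s)).gen _)⁻¹ * ξ.cfg.y q' s i)
  rw [h1]

theorem agr_dat {d : J → ℕ} {ξ : Dat io d I K} {ξ' : Dat io d I K'} {s : J}
    (hf : ∀ j, j ≠ s → ξ.f j = (ξ'.map α).f j) (hx : ξ.x = (ξ'.map α).x) :
    Agr s ξ.cfg (ξ'.cfg.map α) := by
  rw [← Vb37.cfg_map]
  refine ⟨fun q j hj => funext fun i => ?_, fun κ _ => ?_⟩
  · change hv _ (ξ.f j i) (ξ.x q) = hv _ _ _
    rw [hf j hj, hx]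
  · change Submodule.map (ξ.evl _) _ = Submodule.map _ _
    congr 1
    ext σ q
    change hv _ _ (ξ.x q) = hv _ _ _
    rw [hx]

/-- the conclusion of the term level comparison -/
def Stp (B : Th) (n : Cn io) (T : Tgt io A) {A' : Type} [Fintype A'] (T' : Tgt io A') (h : ℕ)
    (z : Cfg io I K) : Prop :=
  z.dv T = z.dv T' ∧ ∀ W, Dvs W → (z.dv T).val W ≠ 1 →
    (z.red (plV W)).On (sum T n.xT) ∧ (z.red (plV W)).On T' ∧
    ((ob B n.jU (z.red (plV W))).natDegree ≤ h ∧ (ob B n.jU (z.red (plV W))).coeff h = (-1) ^ h) ∧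
    ∀ q₀, exc B T (z.red (plV W)) (B.pb (LP.at W) (B.c1 (z.dv T))) =
      exc B T' (z.red (plV W)) (B.pb (LP.at W) (B.c1 (z.dv T))) *
        (ob B n.jU (z.red (plV W))).eval (B.c1 (ln ((z.red (plV W)).y q₀) n.jS))

/-- **only the top power of `λ` contributes** -/
theorem vir_low (hB : B.Ax) {d₀ : J₀ → ℕ} {T : Tgt io A} {M : Type} [Fintype M]
    {al : M → Fam B io} {be ga : M → Fam B io₀} (hbe : ∀ q, Cls B Tn (be q))
    (hga : ∀ q, Cls B Tn (ga q))
    (hal : ∀ q (E : Type) [Field E] [Algebra ℂ E] [Algebra.EssFiniteType ℂ E] (y : Pnt io E),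
      NZ y → (sum T r.cn.xT).On y →
      al q E y = be q E (r.pr y) + hc B r.cn.jS E y * ga q E (r.pr y))
    {h r₀ : ℕ} (hr : r₀ = h + Fintype.card M) {ξ : Dat io (r.up d₀) I K}
    {ξ' : Dat io (r.up d₀) I K'} (hf : ∀ j, j ≠ r.cn.jS → ξ.f j = (ξ'.map α).f j)
    (hx : ξ.x = (ξ'.map α).x) (hd : r₀ + dim ℂ K' ≤ dim ℂ K)
    (hS : Stp B r.cn T (TP r Tn) h ξ.cfg) (m : M → I) (q₀ : M) :
    vir B T ξ.cfg m (prd al) = (-1) ^ h * vir B (TP r Tn) ξ.cfg m
      fun E _ _ y => hc B r.cn.jS E (y q₀) ^ r₀ * prd ga E fun q => r.pr (y q) := by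
  classical
  rw [← vir_smul]
  refine vir_congr hS.1 fun W hW h1 => ?_
  obtain ⟨o1, o2, ⟨o3, o4⟩, o5⟩ := hS.2 W hW h1
  have hA := agr_dat hf hx
  have hz := (Tree87.nz_cfg ξ).red (plV W)
  have hz' := Tree87.nz_cfg ξ'
  have hW' : Dvs (dn α W) := Val40.dvs_dn hW (Prd.ne_top_of_sup (D := ξ'.cfg.dv (TP r Tn))
    (Prd.mem_sup_pb.1 (by rw [← Cfg.dv_map, ← hA.dv, ← hS.1]; exact h1)))
  have := essFT_Rf hW
  have := essFT_Rf hW'
  have e1 := dim_Rf' hW
  have e2 := dim_Rf' hW'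
  have o6 := ((on_TP r).1 o2).1
  set w := ξ.cfg.red (plV W) with hw
  set v := ξ'.cfg.red (plV (dn α W))
  set x := exc B (TP r Tn) w (B.pb (LP.at W) (B.c1 (ξ.cfg.dv (TP r Tn)))) with hx'
  let L : M → (B.H (Rf W))[X] := fun q =>
    C (ga q _ (r.pr (w.y (m q)))) * X + C (be q _ (r.pr (w.y (m q))))
  have l1 : ∀ q ∈ Finset.univ, (L q).natDegree ≤ 1 := fun q _ => natDegree_linear_le
  have l2 : (∏ q, L q).natDegree ≤ Fintype.card M :=
    (natDegree_prod_le _ _).trans ((Finset.sum_le_sum l1).trans (by simp))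
  have l3 : (∏ q, L q).coeff (Fintype.card M) = ∏ q, ga q _ (r.pr (w.y (m q))) := by
    simpa [L, coeff_one] using coeff_prod_of_natDegree_le Finset.univ L 1 l1
  have g1 := itg_top hB (ri α W) (C (exc B (TP r Tn) v (B.pb (LP.at (dn α W))
      (B.c1 (ξ'.cfg.dv (TP r Tn))))) * (ob B r.cn.jU v *
      ∏ q, (C (ga q _ (r.pr (v.y (m q)))) * X + C (be q _ (r.pr (v.y (m q)))))))
    (ln (w.y (m q₀)) r.cn.jS) (n := r₀) (by omega) (G' := C x * (ob B r.cn.jU w * ∏ q, L q))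
    (by
      simp only [Polynomial.map_mul, Polynomial.map_prod, Polynomial.map_add, map_C, map_X, L]
      rw [hx', exc_fr hB hz' hA, ob_fr hB hz' hA r.cn.SU.symm (crd_cfg ξ' _)]
      simp only [hw, cls_fr hz' hA (hbe _) o6, cls_fr hz' hA (hga _) o6]
      rfl)
    ((natDegree_C_mul_le _ _).trans (natDegree_mul_le.trans (hr ▸ add_le_add o3 l2)))
  rw [coeff_C_mul, hr, coeff_mul_add_eq_of_natDegree_le o3 l2, o4, l3, ← hr] at g1
  have g2 : trm B T ξ.cfg m (prd al) W =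
      (C x * (ob B r.cn.jU w * ∏ q, L q)).eval (B.c1 (ln (w.y (m q₀)) r.cn.jS)) := by
    rw [trm, o5 (m q₀), hS.1, eval_mul, eval_mul, eval_C, eval_prod, mul_assoc, prd]
    congr 2
    refine Finset.prod_congr rfl fun q _ => ?_
    have e : w.y (m q) r.cn.jS = w.y (m q₀) r.cn.jS := red_const ξ (r.up_S d₀) _ (m q) (m q₀)
    rw [hal q _ _ (hz _) (o1 _), hc, ln, e]
    simp only [L, eval_add, eval_mul, eval_C, eval_X]
    rw [add_comm, mul_comm]
    rfl
  rw [g2, g1]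
  congr 1
  change _ = x * (((-1 : ℂ) ^ h) • (B.c1 _ ^ r₀ * ∏ q, ga q _ (r.pr (w.y (m q)))))
  rw [Algebra.smul_def, map_pow, map_neg, map_one]
  ring

end Crest.Agent.X262.Cd62
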