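import Crest.Agent.X262.Conc78.Defs
import Crest.Agent.X262.End66.Rx
import Crest.Agent.X262.End66.Loc
import Crest.Agent.X262.Vb.Loc
import Crest.Agent.X262.Tree87.Rank

/-!
# Row 262, road B (helper62): the product end, projections

* `pc r z`, `pd r ξ` : the projection of a configuration, of a datum to the factors of `io₀`;
* `TP r T` : the target `T × S × p₀`;  `mem_Nm_TP`, `mem_Eb_TP`;
* `root_of_sv`, `root_TP` : the class of the zero divisor is a root of the Chern polynomial.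
-/

set_option autoImplicit false
set_option linter.unusedSectionVars false

noncomputable section

namespace Crest.Agent.X262.Cd62

open Crest.Agent.X277 Crest.Agent.X277.BD Crest.Agent.X277.Pst Crest.Agent.X277.BD.Cyc Polynomial
open Crest.Agent.X262.Hb Crest.Agent.X262.Vb Crest.Agent.X262.Conc78
open Crest.Agent.X262.End66 (sum dp jac_eq mxf_congr)
open Crest.Agent.X262.Node22 (scl chr mem_Eb)
open Crest.Agent.X262.Bub96 (hv)
open Crest.Agent.X262.Bub96.Tr (dot)
open Crest.Agent.X262.Sym65 (cf Sup)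

variable {J : Type} [Fintype J] [DecidableEq J] {io : J → Type} [∀ j, Fintype (io j)]
  [∀ j, DecidableEq (io j)] {J₀ : Type} [Fintype J₀] [DecidableEq J₀] {io₀ : J₀ → Type}
  [∀ j, Fintype (io₀ j)] [∀ j, DecidableEq (io₀ j)] {A A₀ I : Type} [Fintype A] [Fintype A₀]
  [Fintype I] {K E E' : Type} [Field K] [Algebra ℂ K] [Field E] [Algebra ℂ E] [Field E']
  [Algebra ℂ E'] (r : Cd io₀ io)

theorem sum_e {M : Type*} [AddCommMonoid M] (f : J → M) :
    ∑ j, f j = f (r.e none) + (f (r.e (some none)) + ∑ k, f (r.e (some (some k)))) := by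
  rw [← r.e.sum_comp, Fintype.sum_option, Fintype.sum_option]

theorem prod_e {M : Type*} [CommMonoid M] (f : J → M) :
    ∏ j, f j = f (r.e none) * (f (r.e (some none)) * ∏ k, f (r.e (some (some k)))) := by
  rw [← r.e.prod_comp, Fintype.prod_option, Fintype.prod_option]

theorem ln_pr (y : Pnt io E) (k : J₀) : ln (r.pr y) k = ln y (r.e (some (some k))) :=
  mxf_congr ((r.ei k).surjective.range_comp (y (r.e (some (some k)))))

theorem lw_up (y : Pnt io E) (κ : J₀ → ℕ) : lw (r.up κ) y = lw κ (r.pr y) := by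
  simp [lw, sum_e r, ln_pr]

theorem dot_up (κ d : J₀ → ℕ) : dot (r.up κ) (r.up d) = dot κ d := by
  simp [dot, sum_e r]


theorem nz_pr {y : Pnt io E} (h : NZ y) : NZ (r.pr y) := fun k => by
  obtain ⟨i, hi⟩ := h (r.e (some (some k)))
  obtain ⟨i, rfl⟩ := (r.ei k).surjective i
  exact ⟨i, hi⟩

/-- the projection of a configuration -/
def pc (z : Cfg io I E) : Cfg io₀ I E where
  y q := r.pr (z.y q)
  V κ := z.V (r.up κ)

theorem pc_nz {z : Cfg io I E} (h : z.NZ) : (pc r z).NZ := fun q => nz_pr r (h q)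

theorem pc_gau (c : I → J → E) (z : Cfg io I E) :
    pc r (z.gau c) = (pc r z).gau fun q k => c q (r.e (some (some k))) :=
  Cfg.ext (fun _ => rfl) fun κ => by
    change sclS _ _ = sclS _ _
    congr 1
    funext q
    simp [prod_e r]

theorem pc_nrm (V : RZ ℂ E) (z : Cfg io I E) :
    (pc r z).nrm V = fun q k => z.nrm V q (r.e (some (some k))) := by
  funext q k
  exact congrArg (fun a : BD ℂ E => (a.gen V)⁻¹) (ln_pr r (z.y q) k)

theorem pc_red (p : Pl ℂ E ℂ E') (z : Cfg io I E) : pc r (z.red p) = (pc r z).red p := by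
  rw [Cfg.red, Cfg.red, pc_nrm, ← pc_gau]
  rfl


theorem pc_geq {z w : Cfg io I E} (h : Cfg.Geq z w) : Cfg.Geq (pc r z) (pc r w) := by
  obtain ⟨c, hc, rfl⟩ := h
  exact ⟨_, fun q k => hc q _, pc_gau r c z⟩

/-- the projection of a datum -/
def pd {d₀ : J₀ → ℕ} {I : Type} (ξ : Dat io (r.up d₀) I K) : Dat io₀ d₀ I K where
  f k i := ξ.f (r.e (some (some k))) (r.ei k i)
  x := ξ.x
  cp := by
    refine ⟨fun k i => (ξ.cp.1 _ _).trans (r.up_k d₀ k).le, fun k => ?_, fun k => ?_⟩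
    · obtain ⟨i, hi⟩ := ξ.cp.2.1 (r.e (some (some k)))
      obtain ⟨i, rfl⟩ := (r.ei k).surjective i
      exact ⟨i, by rwa [r.up_k] at hi⟩
    · rw [← ξ.cp.2.2 (r.e (some (some k))),
        ← (r.ei k).surjective.range_comp (ξ.f (r.e (some (some k))))]
      rfl

variable {d₀ : J₀ → ℕ}

theorem pd_pt {I : Type} (ξ : Dat io (r.up d₀) I K) (t : Option K) :
    (pd r ξ).pt t = r.pr (ξ.pt t) := by
  funext k i
  change hv _ _ _ = hv _ _ _
  rw [r.up_k]
  rfl

theorem pd_cfg (ξ : Dat io (r.up d₀) I K) : (pd r ξ).cfg = pc r ξ.cfg :=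
  Cfg.ext (fun _ => pd_pt r ξ _) fun κ => by
    change Submodule.map (ξ.evl _) (degreeLE K (dot κ _ : ℕ)) = Submodule.map _ _
    rw [dot_up]


/-! ### the product end -/

theorem vi_injective : Function.Injective r.vi := by
  rintro ⟨k, i⟩ ⟨k', i'⟩ h
  obtain rfl : k = k' := by simpa [Cd.vi] using congrArg Sigma.fst h
  simpa [Cd.vi] using h

theorem dp_rename (y : Pnt io E) (w : Vr io → E) (q : MvPolynomial (Vr io₀) ℂ) :
    dp y w (MvPolynomial.rename r.vi q) = dp (r.pr y) (fun v => w (r.vi v)) q := by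
  refine (Fintype.sum_of_injective r.vi (vi_injective r) _ _ (fun v hv => ?_) fun v => ?_).symm
  · rw [MvPolynomial.pderiv_eq_zero_of_notMem_vars fun h => hv ?_, pv, map_zero, zero_mul]
    obtain ⟨u, -, hu⟩ := Finset.mem_image.1 (MvPolynomial.vars_rename _ _ h)
    exact ⟨u, hu⟩
  · rw [MvPolynomial.pderiv_rename (vi_injective r), r.pv_rename]

theorem dp_X (y : Pnt io E) (w : Vr io → E) (v : Vr io) : dp y w (MvPolynomial.X v) = w v := by
  rw [dp, Finset.sum_eq_single v (fun u _ h => by simp [pv, MvPolynomial.pderiv_X, h.symm])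
    (by simp)]
  simp [pv]

/-- the target `T × S × p₀` -/
abbrev TP (T : Tgt io₀ A₀) : Tgt io (A₀ ⊕ r.cn.KL) := sum (r.tgt T) r.cn.xT

variable {T : Tgt io₀ A₀}

theorem jac_inl (y : Pnt io E) (w : Vr io → E) (a : A₀) :
    (TP r T).jac y w (.inl a) = T.jac (r.pr y) (fun v => w (r.vi v)) a := by
  rw [jac_eq, jac_eq]
  exact dp_rename r y w _

theorem jac_inr (y : Pnt io E) (w : Vr io → E) (p : r.cn.KL) :
    (TP r T).jac y w (.inr p) = w ⟨r.cn.jC, r.cn.f (some p)⟩ := by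
  rw [jac_eq]
  exact dp_X y w _

theorem mem_Nm_TP {y : Pnt io E} {σ : A₀ ⊕ r.cn.KL → E} :
    σ ∈ (TP r T).Nm y ↔ (fun a => σ (.inl a)) ∈ T.Nm (r.pr y) := by
  refine ⟨fun ⟨w, hw⟩ => ⟨_, funext fun a => (jac_inl r y w a).symm.trans (congrFun hw _)⟩,
    fun ⟨w, hw⟩ => ?_⟩
  let g : Vr io₀ ⊕ r.cn.KL → Vr io := Sum.elim r.vi fun p => ⟨r.cn.jC, r.cn.f (some p)⟩
  have hg : Function.Injective g := by
    refine (vi_injective r).sumElim (fun p p' h => by simpa using h) fun v p h => ?_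
    simpa [Cd.vi, Cd.cn] using congrArg Sigma.fst h
  have h1 := hg.extend_apply (Sum.elim w fun p => σ (.inr p)) 0
  refine ⟨Function.extend g (Sum.elim w fun p => σ (.inr p)) 0, funext fun a => ?_⟩
  rcases a with a | p
  · rw [jac_inl, ← congrFun hw a]
    exact congrArg (fun u => T.jac (r.pr y) u a) (funext fun v => h1 (.inl v))
  · rw [jac_inr]
    exact h1 (.inr p)

theorem mem_Eb_TP {z : Cfg io I E} {σ : (A₀ ⊕ r.cn.KL) × I → E} :
    σ ∈ z.Eb (TP r T) ↔ (fun x : A₀ × I => σ (.inl x.1, x.2)) ∈ (pc r z).Eb T ∧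
      ∀ p, (fun q => σ (.inr p, q)) ∈ z.V r.cn.kx := by
  simp only [mem_Eb, Sum.forall, mem_Nm_TP]
  exact ⟨fun h => ⟨⟨h.1.1, h.2⟩, h.1.2⟩, fun h => ⟨⟨h.1.1, h.2⟩, h.1.2⟩⟩

theorem sv_inl (z : Cfg io I E) (a : A₀) (q : I) :
    z.sv (TP r T) (.inl a, q) = (pc r z).sv T (a, q) := r.pv_rename _ _

theorem sv_inr (z : Cfg io I E) (p : r.cn.KL) (q : I) :
    z.sv (TP r T) (.inr p, q) = z.y q r.cn.jC (r.cn.f (some p)) := MvPolynomial.aeval_X _ _

theorem ea_inl (z : Cfg io I E) (a : A₀) (q : I) :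
    z.ea (TP r T) (.inl a, q) = (pc r z).ea T (a, q) := lw_up r _ _

theorem ea_inr (z : Cfg io I E) (p : r.cn.KL) (q : I) :
    z.ea (TP r T) (.inr p, q) = ln (z.y q) r.cn.jC := lw_single _ _

theorem on_TP {z : Cfg io I E} : z.On (TP r T) ↔ (pc r z).On T ∧ z.On r.cn.xT :=
  ⟨fun h => ⟨fun q => (r.on_tgt T _).1 fun a => h q (.inl a), fun q p => h q (.inr p)⟩,
    fun h q a => by
      rcases a with a | p
      · exact (r.on_tgt T _).2 (h.1 q) a
      · exact h.2 q p⟩

/-! ### the root -/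



end Crest.Agent.X262.Cd62
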